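import Vale.Agent.P070.Final

/-!
# P070: short form of property (N) for the hand-ins
-/

open scoped ComplexOrder InnerProductSpace

namespace Vale.Agent.P070

universe u

/-- A representation of `A` on a Hilbert space. -/
structure Rep (A : Type u) [NonUnitalCStarAlgebra A] where
  H : Type u
  [nacg : NormedAddCommGroup H]
  [ips : InnerProductSpace ℂ H]
  [cs : CompleteSpace H]
  π : A →⋆ₙₐ[ℂ] (H →L[ℂ] H)

attribute [instance] Rep.nacg Rep.ips Rep.cs

section Defs

variable {A H K : Type u} [NonUnitalCStarAlgebra A] [NormedAddCommGroup H]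
  [InnerProductSpace ℂ H] [CompleteSpace H] [NormedAddCommGroup K]
  [InnerProductSpace ℂ K] [CompleteSpace K]

/-- unitary equivalence of two representations -/
def UnitEquiv (π : A →⋆ₙₐ[ℂ] (H →L[ℂ] H)) (ρ : A →⋆ₙₐ[ℂ] (K →L[ℂ] K)) : Prop :=
  ∃ U : H ≃ₗᵢ[ℂ] K, ∀ a x, U (π a x) = ρ a (U x)

/-- `π` is an isomorphism of `A` onto the algebra of compact operators of `H`. -/
def IsoCompact (π : A →⋆ₙₐ[ℂ] (H →L[ℂ] H)) : Prop :=
  Function.Injective π ∧ Set.range π = {T : H →L[ℂ] H | IsCompactOperator T}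

/-- Property (N): `A ≠ 0` and any two irreducible representations of `A` are unitarily
equivalent. -/
def HasN (A : Type u) [NonUnitalCStarAlgebra A] : Prop :=
  Nontrivial A ∧ ∀ R S : Rep A, IsIrred R.π → IsIrred S.π → UnitEquiv R.π S.π

theorem HasN.propertyN (h : HasN A) : PropertyN A := by
  refine ⟨h.1, ?_⟩
  intro H₁ H₂ i1 i2 i3 j1 j2 j3 π₁ π₂ h1 h2
  exact h.2 ⟨H₁, π₁⟩ ⟨H₂, π₂⟩ h1 h2

theorem HasN.exists_irred (h : HasN A) : ∃ R : Rep A, IsIrred R.π := by
  obtain ⟨H, i1, i2, i3, π, hπ⟩ := Vale.Agent.P070.exists_irred h.propertyN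
  exact ⟨⟨H, π⟩, hπ⟩

end Defs

end Vale.Agent.P070
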